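import Vale.Agent.P266.GC.Main

namespace Vale.Agent.Results.P266.GaloisCovers

open IsLocalRing

/-- Lipman-Zariski for finite Galois covers of smooth germs in characteristic zero, when the
group has odd order or acts commutatively on the tangent fibre. -/
theorem result {k A R G : Type*}
    [Field k] [IsAlgClosed k] [CharZero k]
    [CommRing A] [IsDomain A] [IsLocalRing A] [IsNoetherianRing A] [UniqueFactorizationMonoid A]
    [Algebra k A]
    [CommRing R] [IsDomain R] [IsIntegrallyClosed R] [IsLocalRing R] [Algebra k R] [Algebra A R]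
    [IsScalarTower k A R] [Module.Finite A R]
    [Group G] [Fintype G]
    (ρ : G →* (R ≃ₐ[A] R)) (n : ℕ) (x : Fin n → A) (d : Fin n → Derivation k A A)
    (hx : Ideal.span (Set.range x) = maximalIdeal A)
    (hres : ∀ a : A, ∃ c : k, a - algebraMap k A c ∈ maximalIdeal A)
    (hdual : ∀ i j, d i (x j) = if i = j then 1 else 0)
    (hdim : ringKrullDim A = n)
    (hinj : Function.Injective (algebraMap A R))
    (hfixed : ∀ r : R, (∀ g, ρ g r = r) → r ∈ (algebraMap A R).range)
    (hfree : Module.Free R (Derivation k R R))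
    (hcase : Odd (Fintype.card G) ∨
      ∀ (g h : G) (δ : Derivation k R R),
        ∃ δ' ∈ maximalIdeal R • (⊤ : Submodule R (Derivation k R R)), ∀ r : R,
          ρ (g * h) (δ (ρ (g * h)⁻¹ r)) - ρ (h * g) (δ (ρ (h * g)⁻¹ r)) = δ' r) :
    IsRegularLocalRing R := by
  classical
  have : IsNoetherianRing R := IsNoetherianRing.of_finite A R
  have H : Vale.Agent.P266.GC.Cov (ρ.range.subtype) :=
    ⟨hinj, fun r hr => hfixed r (fun g => hr ⟨ρ g, g, rfl⟩), ρ.range.subtype_injective⟩
  let C : Vale.Agent.P266.AC.Chart k A n := ⟨x, d, hx, hres, hdual⟩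
  refine Vale.Agent.P266.GC.regular_main H C hdim ?_
  rcases hcase with hodd | hcomm
  · refine Or.inl (hodd.of_dvd_nat ?_)
    rw [← Nat.card_eq_fintype_card, ← Nat.card_eq_fintype_card]
    exact Subgroup.card_range_dvd ρ
  · refine Or.inr ?_
    rintro ⟨_, g, rfl⟩ ⟨_, h, rfl⟩ D
    obtain ⟨δ', hδ', he⟩ := hcomm g h D
    convert hδ' using 1
    ext r
    rw [← he r]
    simp [Vale.Agent.P266.GC.conj_apply]

end Vale.Agent.Results.P266.GaloisCovers
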